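import Claimed.Agent.R254.Defs

/-!
THIS FILE = PACKAGE E254-BASIC (row 254, END254-B/C; architect helper65).  Mathlib only.
# Common API of `ee`, `ph`, `hor`, `ext`, `Dat`, `Amp`.   Every other file of `R254/` may cite these (do NOT re-prove them elsewhere: unique names).
All proofs are a few lines (`unfold`, `Complex.norm_exp`, `Complex.exp_add`, `fun_prop`, `integral_add`, `Integrable.bdd_mul`, ...).
`Dat.integrable`: bounded measurable, vanishing off a set of finite measure (`Measure.integrableOn_of_bounded` + `integrableOn_iff_integrable_of_support_subset`).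
-/

set_option autoImplicit false

namespace Claimed.Agent.R254

open MeasureTheory Metric Set
open scoped ContDiff ENNReal ComplexConjugate RealInnerProductSpace

/-- horizontal part of a point of `E3` -/
noncomputable def hor (b : E3) : E2 := !₂[b 0, b 1]

/-- `C¹` amplitudes supported in `closedBall y₀ (2ρ)` with `sup |A|, sup |∇A| ≤ B₁` -/
structure Amp (y₀ : E2) (ρ : ℝ) (A : E2 → ℂ) (B₁ : ℝ) : Prop where
  smooth : ContDiff ℝ 1 A
  supp : ∀ y, y ∉ closedBall y₀ (2 * ρ) → A y = 0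
  b0 : ∀ y, ‖A y‖ ≤ B₁
  b1 : ∀ y, ‖fderiv ℝ A y‖ ≤ B₁

/-! ### `ee` -/

theorem ee_eq (s : ℝ) : ee s = Complex.exp (((2 * Real.pi * s : ℝ) : ℂ) * Complex.I) := by
  unfold ee
  congr 1
  push_cast
  ring

theorem ee_norm (s : ℝ) : ‖ee s‖ = 1 := by
  rw [ee_eq, Complex.norm_exp_ofReal_mul_I]

theorem ee_zero : ee 0 = 1 := by
  simp [ee]

theorem ee_add (s t : ℝ) : ee (s + t) = ee s * ee t := by
  unfold ee
  rw [← Complex.exp_add]
  congr 1
  push_cast
  ring

theorem ee_neg (s : ℝ) : ee (-s) = conj (ee s) := by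
  unfold ee
  rw [← Complex.exp_conj]
  congr 1
  simp only [map_mul, Complex.conj_I, Complex.conj_ofReal, map_ofNat]
  push_cast
  ring

theorem ee_sub (s t : ℝ) : ee (s - t) = ee s * conj (ee t) := by
  rw [sub_eq_add_neg, ee_add, ee_neg]

theorem ee_mul_conj (s : ℝ) : ee s * conj (ee s) = 1 := by
  rw [Complex.mul_conj, Complex.normSq_eq_norm_sq, ee_norm]
  simp

theorem ee_hasDerivAt (s : ℝ) : HasDerivAt ee (2 * Real.pi * Complex.I * ee s) s := by
  have h1 : HasDerivAt (fun s : ℝ => 2 * Real.pi * Complex.I * (s : ℂ)) (2 * Real.pi * Complex.I) s := by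
    simpa using (Complex.ofRealCLM.hasDerivAt (x := s)).const_mul (2 * Real.pi * Complex.I)
  have h2 := h1.cexp
  exact h2.congr_deriv (mul_comm _ _)

theorem ee_contDiff : ContDiff ℝ ∞ ee := by
  unfold ee
  exact (contDiff_const.mul Complex.ofRealCLM.contDiff).cexp

theorem ee_continuous : Continuous ee := ee_contDiff.continuous

theorem ee_sub_le (s t : ℝ) : ‖ee s - ee t‖ ≤ 2 * Real.pi * |s - t| := by
  have h1 : ee s - ee t = ee t * (ee (s - t) - 1) := by
    rw [mul_sub, ← ee_add, mul_one]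
    congr 2
    ring
  rw [h1, norm_mul, ee_norm, one_mul, ee_eq, mul_comm _ Complex.I]
  refine Real.norm_exp_I_mul_ofReal_sub_one_le.trans (le_of_eq ?_)
  rw [Real.norm_eq_abs, abs_mul, abs_of_pos (by positivity : (0 : ℝ) < 2 * Real.pi)]

/-! ### `ph`, `hor` -/

theorem ph_add (φ : E2 → ℝ) (x x' : E3) (y : E2) : ph φ (x + x') y = ph φ x y + ph φ x' y := by
  unfold ph
  simp only [PiLp.add_apply]
  ring

theorem ph_sub (φ : E2 → ℝ) (x x' : E3) (y : E2) : ph φ (x - x') y = ph φ x y - ph φ x' y := by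
  unfold ph
  simp only [PiLp.sub_apply]
  ring

theorem ph_eq_inner (φ : E2 → ℝ) (x : E3) (y : E2) : ph φ x y = ⟪hor x, y⟫ + x 2 * φ y := by
  unfold ph hor
  simp only [PiLp.inner_apply, Fin.sum_univ_two, RCLike.inner_apply, conj_trivial]
  simp
  ring

theorem er_norm_sq_eq (b : E3) : ‖b‖ ^ 2 = ‖hor b‖ ^ 2 + (b 2) ^ 2 := by
  rw [EuclideanSpace.norm_sq_eq, EuclideanSpace.norm_sq_eq, Fin.sum_univ_three, Fin.sum_univ_two]
  simp [hor]

theorem norm_le_hor (b : E3) : ‖b‖ ≤ ‖hor b‖ + |b 2| := by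
  have h := er_norm_sq_eq b
  refine (sq_le_sq₀ (norm_nonneg _) (by positivity)).1 ?_
  rw [h, add_sq, sq_abs]
  nlinarith [mul_nonneg (norm_nonneg (hor b)) (abs_nonneg (b 2))]

theorem hor_norm_le (b : E3) : ‖hor b‖ ≤ ‖b‖ := by
  have h := er_norm_sq_eq b
  refine (sq_le_sq₀ (norm_nonneg _) (norm_nonneg _)).1 ?_
  nlinarith [sq_nonneg (b 2)]

theorem abs_coord_le (b : E3) (i : Fin 3) : |b i| ≤ ‖b‖ :=
  PiLp.norm_apply_le b i

theorem abs_ph_le (φ : E2 → ℝ) (x : E3) (y : E2) : |ph φ x y| ≤ ‖x‖ * (‖y‖ + |φ y|) := by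
  rw [ph_eq_inner]
  have h1 : |⟪hor x, y⟫| ≤ ‖x‖ * ‖y‖ :=
    (abs_real_inner_le_norm _ _).trans (mul_le_mul_of_nonneg_right (hor_norm_le x) (norm_nonneg _))
  have h2 : |x 2 * φ y| ≤ ‖x‖ * |φ y| := by
    rw [abs_mul]
    exact mul_le_mul_of_nonneg_right (abs_coord_le x 2) (abs_nonneg _)
  calc |⟪hor x, y⟫ + x 2 * φ y| ≤ |⟪hor x, y⟫| + |x 2 * φ y| := abs_add_le _ _
    _ ≤ _ := by rw [mul_add]; exact add_le_add h1 h2

theorem ph_continuous {φ : E2 → ℝ} (hφ : Continuous φ) :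
    Continuous (fun p : E3 × E2 => ph φ p.1 p.2) := by
  unfold ph
  fun_prop

theorem ph_contDiff {φ : E2 → ℝ} (hφ : ContDiff ℝ ∞ φ) (x : E3) : ContDiff ℝ ∞ (ph φ x) := by
  have h : ph φ x = fun y => ⟪hor x, y⟫ + x 2 * φ y := funext (ph_eq_inner φ x)
  rw [h]
  exact (contDiff_const.inner ℝ contDiff_id).add (contDiff_const.mul hφ)

theorem ph_fderiv {φ : E2 → ℝ} (hφ : ContDiff ℝ ∞ φ) (x : E3) (y u : E2) :
    fderiv ℝ (ph φ x) y u = ⟪hor x, u⟫ + x 2 * fderiv ℝ φ y u := by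
  have h : ph φ x = fun y => ⟪hor x, y⟫ + x 2 * φ y := funext (ph_eq_inner φ x)
  have hd : DifferentiableAt ℝ φ y := hφ.differentiable (by simp) y
  have h1 : HasFDerivAt (fun y : E2 => ⟪hor x, y⟫) (innerSL ℝ (hor x)) y :=
    (innerSL ℝ (hor x)).hasFDerivAt
  have h2 := h1.fun_add (hd.hasFDerivAt.const_mul (x 2))
  rw [h, h2.fderiv]
  simp

/-! ### `Dat` -/

theorem Dat.mono {y₀ : E2} {ρ ρ' : ℝ} {g : E2 → ℂ} (h : Dat y₀ ρ g) (hρ : ρ ≤ ρ') : Dat y₀ ρ' g :=
  ⟨h.meas, h.bdd, fun y hy => closedBall_subset_closedBall hρ (h.supp y hy)⟩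

theorem Dat.indicator_eq {y₀ : E2} {ρ : ℝ} {g : E2 → ℂ} (h : Dat y₀ ρ g) :
    (closedBall y₀ ρ).indicator g = g := by
  rw [Set.indicator_eq_self]
  exact fun y hy => h.supp y hy

theorem Dat.memLp {y₀ : E2} {ρ : ℝ} {g : E2 → ℂ} (h : Dat y₀ ρ g) (p : ℝ≥0∞) : MemLp g p volume := by
  obtain ⟨B, hB⟩ := h.bdd
  have : IsFiniteMeasure (volume.restrict (closedBall y₀ ρ)) :=
    ⟨by rw [Measure.restrict_apply_univ]; exact measure_closedBall_lt_top⟩
  have h1 : MemLp g ⊤ (volume.restrict (closedBall y₀ ρ)) :=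
    memLp_top_of_bound h.meas.aestronglyMeasurable B (Filter.Eventually.of_forall hB)
  have h2 : MemLp g p (volume.restrict (closedBall y₀ ρ)) := h1.mono_exponent le_top
  rw [← h.indicator_eq, memLp_indicator_iff_restrict measurableSet_closedBall]
  exact h2

theorem Dat.integrable {y₀ : E2} {ρ : ℝ} {g : E2 → ℂ} (h : Dat y₀ ρ g) : Integrable g :=
  memLp_one_iff_integrable.1 (h.memLp 1)

theorem Dat.lintegral_lt_top {y₀ : E2} {ρ : ℝ} {g : E2 → ℂ} (h : Dat y₀ ρ g) {p : ℝ} (hp : 0 < p) :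
    ∫⁻ y, ‖g y‖ₑ ^ p < ⊤ := by
  have h1 := lintegral_rpow_enorm_lt_top_of_eLpNorm_lt_top (p := ENNReal.ofReal p)
    (by simpa using hp) ENNReal.ofReal_ne_top (h.memLp (ENNReal.ofReal p)).2
  rwa [ENNReal.toReal_ofReal hp.le] at h1

/-- multiplication by a bounded measurable function -/
theorem Dat.mul {y₀ : E2} {ρ : ℝ} {g : E2 → ℂ} (h : Dat y₀ ρ g) {m : E2 → ℂ} (hm : Measurable m)
    (hb : ∃ B : ℝ, ∀ y, ‖m y‖ ≤ B) : Dat y₀ ρ (fun y => m y * g y) := by
  obtain ⟨B, hB⟩ := h.bdd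
  obtain ⟨B', hB'⟩ := hb
  refine ⟨hm.mul h.meas, ⟨B' * B, fun y => ?_⟩, fun y hy => h.supp y (right_ne_zero_of_mul hy)⟩
  rw [norm_mul]
  exact mul_le_mul (hB' y) (hB y) (norm_nonneg _) ((norm_nonneg _).trans (hB' y))

theorem er_continuous_ee_ph {φ : E2 → ℝ} (hφ : Continuous φ) (a : E3) :
    Continuous (fun y => ee (ph φ a y)) :=
  ee_continuous.comp ((ph_continuous hφ).comp (Continuous.prodMk_right a))

theorem Dat.ee_mul {φ : E2 → ℝ} (hφ : Continuous φ) {y₀ : E2} {ρ : ℝ} {g : E2 → ℂ} (h : Dat y₀ ρ g)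
    (a : E3) : Dat y₀ ρ (fun y => ee (ph φ a y) * g y) :=
  h.mul (er_continuous_ee_ph hφ a).measurable ⟨1, fun _ => (ee_norm _).le⟩

theorem Dat.indicator {y₀ : E2} {ρ : ℝ} {g : E2 → ℂ} (h : Dat y₀ ρ g) {s : Set E2}
    (hs : MeasurableSet s) : Dat y₀ ρ (s.indicator g) := by
  obtain ⟨B, hB⟩ := h.bdd
  refine ⟨h.meas.indicator hs, ⟨B, fun y => (norm_indicator_le_norm_self g y).trans (hB y)⟩,
    fun y hy => h.supp y ?_⟩
  intro h0
  apply hy
  by_cases hys : y ∈ s
  · rw [Set.indicator_of_mem hys, h0]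
  · exact Set.indicator_of_notMem hys g

theorem Dat.const_mul {y₀ : E2} {ρ : ℝ} {g : E2 → ℂ} (h : Dat y₀ ρ g) (c : ℂ) :
    Dat y₀ ρ (fun y => c * g y) :=
  h.mul measurable_const ⟨‖c‖, fun _ => le_rfl⟩

/-! ### `ext` -/

theorem ext_integrable {φ : E2 → ℝ} (hφ : Continuous φ) {g : E2 → ℂ} (hg : Integrable g) (x : E3) :
    Integrable (fun y => ee (ph φ x y) * g y) :=
  hg.bdd_mul (c := 1) (er_continuous_ee_ph hφ x).aestronglyMeasurable
    (Filter.Eventually.of_forall fun _ => (ee_norm _).le)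

theorem ext_add {φ : E2 → ℝ} (hφ : Continuous φ) {g g' : E2 → ℂ} (hg : Integrable g)
    (hg' : Integrable g') (x : E3) : ext φ (fun y => g y + g' y) x = ext φ g x + ext φ g' x := by
  unfold ext
  rw [← integral_add (ext_integrable hφ hg x) (ext_integrable hφ hg' x)]
  exact integral_congr_ae (Filter.Eventually.of_forall fun y => mul_add _ _ _)

theorem ext_const_mul (φ : E2 → ℝ) (g : E2 → ℂ) (c : ℂ) (x : E3) :
    ext φ (fun y => c * g y) x = c * ext φ g x := by
  unfold ext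
  rw [← integral_const_mul]
  exact integral_congr_ae (Filter.Eventually.of_forall fun y => mul_left_comm _ _ _)

theorem ext_congr_ae (φ : E2 → ℝ) {g g' : E2 → ℂ} (h : g =ᵐ[volume] g') (x : E3) :
    ext φ g x = ext φ g' x := by
  unfold ext
  refine integral_congr_ae ?_
  filter_upwards [h] with y hy
  rw [hy]

/-- translation in `x` = modulation of the datum -/
theorem ext_translate (φ : E2 → ℝ) (g : E2 → ℂ) (a x : E3) :
    ext φ g (x + a) = ext φ (fun y => ee (ph φ a y) * g y) x := by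
  unfold ext
  refine integral_congr_ae (Filter.Eventually.of_forall fun y => ?_)
  show ee (ph φ (x + a) y) * g y = ee (ph φ x y) * (ee (ph φ a y) * g y)
  rw [ph_add, ee_add, mul_assoc]

theorem norm_ext_le (φ : E2 → ℝ) (g : E2 → ℂ) (x : E3) : ‖ext φ g x‖ ≤ ∫ y, ‖g y‖ := by
  unfold ext
  refine (norm_integral_le_integral_norm _).trans (le_of_eq ?_)
  refine integral_congr_ae (Filter.Eventually.of_forall fun y => ?_)
  show ‖ee (ph φ x y) * g y‖ = ‖g y‖
  rw [norm_mul, ee_norm, one_mul]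

theorem ext_continuous {φ : E2 → ℝ} (hφ : Continuous φ) {g : E2 → ℂ} (hg : Integrable g) :
    Continuous (ext φ g) := by
  unfold ext
  refine continuous_of_dominated (bound := fun y => ‖g y‖)
    (fun x => (ext_integrable hφ hg x).aestronglyMeasurable) ?_ hg.norm ?_
  · intro x
    refine Filter.Eventually.of_forall fun y => ?_
    rw [norm_mul, ee_norm, one_mul]
  · refine Filter.Eventually.of_forall fun y => ?_
    exact (ee_continuous.comp ((ph_continuous hφ).comp (Continuous.prodMk_left y))).mul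
      continuous_const

/-- generates the equation lemmas of the definitions above in this file (rule 6: unique names) -/
theorem er_basic_eqns_cite : True := by
  have := @hor.eq_1
  trivial

end Claimed.Agent.R254
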