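import Mathlib

/-!
# R254 / Defs : vocabulary of the END of row 254 (S0494)          (architect helper65)   -- KEEP

`S0494` = diagonal Fourier extension estimate `L^p(σ) → L^p(ℝ³)`, `p > 3`, for a compact piece `K` of an elliptic graph.
CHAIN.   OSC (`R255/Osc/Contract.lean`)  ⟹[END254-A]  `LocEst` (below; local `L³ → L³` estimate with loss `R^ν`)
         ⟹[END254-B = ε-removal, this folder]  S0494.            END254-C = `dk_decay` (`R254/Decay*.lean`), paper free.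

NOTATION.  `e(s) = ee s = exp(2π i s)`;  `γ(y) = (y, φ y) ∈ ℝ³`;  `ph φ x y = x · γ(y)`;
`ext φ g x = ∫ e(x·γ(y)) g(y) dy` (LEBESGUE measure in `y`; the density `√(1+|∇φ|²) 1_K` of the frozen `graphSurfaceMeasure` is put into `g`).

THE CONTRACT WITH END254-A:   `∀ y₀, D²φ(y₀) > 0 → ∃ ρ > 0, LocEst φ y₀ ρ`   (`ρ` as small as A likes).
-/

set_option autoImplicit false

namespace Claimed.Agent.R254

open MeasureTheory Metric Set
open scoped ContDiff ENNReal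

/-- the frequency plane -/
abbrev E2 : Type := EuclideanSpace ℝ (Fin 2)

/-- physical space -/
abbrev E3 : Type := EuclideanSpace ℝ (Fin 3)

/-- `e(s) = exp(2π i s)` -/
noncomputable def ee (s : ℝ) : ℂ := Complex.exp (2 * Real.pi * Complex.I * (s : ℂ))

/-- the phase `x · (y, φ y)` -/
def ph (φ : E2 → ℝ) (x : E3) (y : E2) : ℝ := x 0 * y 0 + x 1 * y 1 + x 2 * φ y

/-- the extension operator of the graph of `φ`, with Lebesgue measure on the parameter plane -/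
noncomputable def ext (φ : E2 → ℝ) (g : E2 → ℂ) (x : E3) : ℂ := ∫ y, ee (ph φ x y) * g y

/-- **LOC** = the exit of END254-A = the entry of END254-B:
local `L³ → L³` extension estimate with loss `R^ν` for data supported in `closedBall y₀ ρ`. -/
def LocEst (φ : E2 → ℝ) (y₀ : E2) (ρ : ℝ) : Prop :=
  ∀ ν : ℝ, 0 < ν → ∃ C : ℝ, 0 ≤ C ∧ ∀ R : ℝ, 1 ≤ R → ∀ g : E2 → ℂ, MemLp g 3 volume →
    (∀ y, g y ≠ 0 → y ∈ closedBall y₀ ρ) →
      ∫⁻ x in ball (0 : E3) R, ‖ext φ g x‖ₑ ^ (3 : ℝ) ≤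
        ENNReal.ofReal (C * R ^ ν) * ∫⁻ y, ‖g y‖ₑ ^ (3 : ℝ)

/-- the class of data of END254-B: bounded Borel functions vanishing off `closedBall y₀ ρ` -/
structure Dat (y₀ : E2) (ρ : ℝ) (g : E2 → ℂ) : Prop where
  meas : Measurable g
  bdd : ∃ B : ℝ, ∀ y, ‖g y‖ ≤ B
  supp : ∀ y, g y ≠ 0 → y ∈ closedBall y₀ ρ

/-- the local quantitative hypotheses on the phase: on `closedBall y₀ (2ρ)` the gradient is `c`-monotone,
`|∇φ| ≤ G`, `|D²φ| ≤ G`. -/
structure ErLoc (φ : E2 → ℝ) (y₀ : E2) (ρ c G : ℝ) : Prop where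
  smooth : ContDiff ℝ ∞ φ
  hρ : 0 < ρ
  hρ1 : ρ ≤ 1
  hc : 0 < c
  hG : 1 ≤ G
  mono : ∀ y ∈ closedBall y₀ (2 * ρ), ∀ z ∈ closedBall y₀ (2 * ρ),
    c * ‖y - z‖ ^ 2 ≤ fderiv ℝ φ y (y - z) - fderiv ℝ φ z (y - z)
  grad : ∀ y ∈ closedBall y₀ (2 * ρ), ‖fderiv ℝ φ y‖ ≤ G
  hess : ∀ y ∈ closedBall y₀ (2 * ρ), ‖fderiv ℝ (fderiv ℝ φ) y‖ ≤ G

/-- generates the equation lemmas of the definitions above in this file (rule 6: unique names) -/
theorem er_defs_eqns_cite : True := by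
  have := @ee.eq_1
  have := @ph.eq_1
  have := @ext.eq_1
  have := @LocEst.eq_1
  trivial

end Claimed.Agent.R254
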